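import Vale.Agent.P038.H982.Main

namespace Vale.Agent.P038.H982
open Finset

variable {V : Type*} [Fintype V] [DecidableEq V] {E : Finset (V × V)}

/-- outer pairs -/
def Feas (E : Finset (V × V)) (B C : V → Finset V) : Prop :=
  (∀ a, N E {a} ⊆ B a) ∧ (∀ a, N E {a} ⊆ C a) ∧ ∀ a b, a ≠ b → ¬ (b ∈ B a ∧ a ∈ C b)

/-- cost -/
def cost (E : Finset (V × V)) (B C : V → Finset V) : ℤ := ∑ a, c E (B a) + ∑ a, c E (C a)

lemma mem_N_single {a b : V} : b ∈ N E {a} ↔ b = a ∨ (a, b) ∈ E := by
  simp [mem_N]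

lemma mem_N_single_P {a b : V} : b ∈ N E {a} ↔ a ∈ P E b := by
  simp [mem_N_single, mem_P]

lemma Feas.symm {B C : V → Finset V} (h : Feas E B C) : Feas E C B :=
  ⟨h.2.1, h.1, fun a b hab hh => h.2.2 b a (Ne.symm hab) ⟨hh.2, hh.1⟩⟩

lemma feas_start (hE : ∀ u v, (u, v) ∈ E → (v, u) ∉ E) :
    Feas E (fun a => N E {a}) (fun a => N E {a}) := by
  refine ⟨fun a => Subset.refl _, fun a => Subset.refl _, ?_⟩
  rintro a b hab ⟨h1, h2⟩
  rw [mem_N_single] at h1 h2
  rcases h1 with h1 | h1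
  · exact hab h1.symm
  rcases h2 with h2 | h2
  · exact hab h2
  exact hE _ _ h1 h2

/-- upper rows -/
def Up (C : V → Finset V) (a : V) : Finset V := univ.filter fun b => b = a ∨ a ∉ C b

lemma mem_Up {C : V → Finset V} {a b : V} : b ∈ Up C a ↔ b = a ∨ a ∉ C b := by simp [Up]

lemma self_mem_of {B : V → Finset V} (h : ∀ a, N E {a} ⊆ B a) (a : V) : a ∈ B a :=
  h a (mem_N_single.2 (Or.inl rfl))

lemma B_sub_Up {B C : V → Finset V} (h : Feas E B C) (a : V) : B a ⊆ Up C a := by
  intro b hb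
  rw [mem_Up]
  by_contra hcon
  push Not at hcon
  exact h.2.2 a b (Ne.symm hcon.1) ⟨hb, hcon.2⟩

/-- minimality -/
def Opt (E : Finset (V × V)) (B C : V → Finset V) : Prop :=
  Feas E B C ∧ ∀ B' C', Feas E B' C' → cost E B C ≤ cost E B' C'

lemma Opt.symm {B C : V → Finset V} (h : Opt E B C) : Opt E C B := by
  refine ⟨h.1.symm, fun B' C' h' => ?_⟩
  have := h.2 C' B' h'.symm
  unfold cost at *
  linarith

lemma sum_update (f : Finset V → ℤ) (B : V → Finset V) (a : V) (R : Finset V) :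
    ∑ x, f (Function.update B a R x) = ∑ x, f (B x) - f (B a) + f R := by
  rw [← add_sum_erase univ (fun x => f (Function.update B a R x)) (mem_univ a),
    ← add_sum_erase univ (fun x => f (B x)) (mem_univ a)]
  have : ∑ x ∈ univ.erase a, f (Function.update B a R x) = ∑ x ∈ univ.erase a, f (B x) :=
    sum_congr rfl fun x hx => by rw [Function.update_of_ne (ne_of_mem_erase hx)]
  rw [this]
  simp only [Function.update_self]
  ring

/-- replacing one row -/
lemma Opt.row {B C : V → Finset V} (h : Opt E B C) (a : V) (R : Finset V) (h1 : B a ⊆ R)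
    (h2 : R ⊆ Up C a) : c E (B a) ≤ c E R := by
  have hf : Feas E (Function.update B a R) C := by
    refine ⟨?_, h.1.2.1, ?_⟩
    · intro x
      by_cases hx : x = a
      · subst hx
        rw [Function.update_self]
        exact (h.1.1 x).trans h1
      · rw [Function.update_of_ne hx]
        exact h.1.1 x
    · rintro x b hxb ⟨g1, g2⟩
      by_cases hx : x = a
      · subst hx
        rw [Function.update_self] at g1
        rcases mem_Up.1 (h2 g1) with g | g
        · exact hxb g.symm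
        · exact g g2
      · rw [Function.update_of_ne hx] at g1
        exact h.1.2.2 x b hxb ⟨g1, g2⟩
  have := h.2 _ _ hf
  unfold cost at this
  rw [sum_update] at this
  linarith

lemma Opt.col {B C : V → Finset V} (h : Opt E B C) (x : V) (T : Finset V)
    (hT : ∀ a ∈ T, x ∈ Up C a ∧ x ∉ B a) :
    T.card ≤ (univ.filter fun z => x ∈ bar E (Up C) z ∧ ∃ a ∈ T, a ∈ P E z).card := by
  have hTC : Disjoint (C x) T := by
    rw [disjoint_left]
    intro a ha haT
    obtain ⟨h1, h2⟩ := hT a haT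
    rcases mem_Up.1 h1 with h1 | h1
    · subst h1
      exact h2 (self_mem_of h.1.1 x)
    · exact h1 ha
  have h1 : c E (C x) ≤ c E (C x ∪ T) := by
    refine h.symm.row x _ subset_union_left ?_
    intro a ha
    rcases mem_union.1 ha with ha | ha
    · exact B_sub_Up h.symm.1 x ha
    · rw [mem_Up]
      exact Or.inr (hT a ha).2
  unfold c at h1
  rw [card_union_of_disjoint hTC] at h1
  have h2 : N E (C x ∪ T) ⊆ N E (C x) ∪
      (univ.filter fun z => x ∈ bar E (Up C) z ∧ ∃ a ∈ T, a ∈ P E z) := by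
    rw [N_union]
    intro v hv
    rw [mem_union]
    by_cases hvC : v ∈ N E (C x)
    · exact Or.inl hvC
    · right
      rcases mem_union.1 hv with hv | hv
      · exact absurd hv hvC
      · refine mem_filter.2 ⟨mem_univ _, ?_, mem_N_iff_P.1 hv⟩
        rw [mem_bar]
        intro s hs
        rw [mem_Up]
        right
        intro hsC
        exact hvC (mem_N_iff_P.2 ⟨s, hsC, hs⟩)
  have h3 := (card_le_card h2).trans (card_union_le _ _)
  push_cast at h1
  omega

/-- the inner pair -/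
lemma inner_compat {B C : V → Finset V} (h : Feas E B C) :
    Feas E (fun a => N E (bar E B a)) (fun a => N E (bar E C a)) := by
  have hself : ∀ {B : V → Finset V}, (∀ a, N E {a} ⊆ B a) → ∀ a, a ∈ bar E B a := by
    intro B hB a
    rw [mem_bar]
    intro s hs
    exact hB s (mem_N_single_P.2 hs)
  refine ⟨fun a => N_mono (singleton_subset_iff.2 (hself h.1 a)),
    fun a => N_mono (singleton_subset_iff.2 (hself h.2.1 a)), ?_⟩
  rintro a b hab ⟨h1, h2⟩
  obtain ⟨x, hx, hxb⟩ := mem_N_iff_P.1 h1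
  obtain ⟨y, hy, hya⟩ := mem_N_iff_P.1 h2
  have e1 : x ∈ B y := mem_bar.1 hx y hya
  have e2 : y ∈ C x := mem_bar.1 hy x hxb
  have exy : x = y := by
    by_contra hne
    exact h.2.2 y x (Ne.symm hne) ⟨e1, e2⟩
  subst exy
  have f1 : x ∈ B a := mem_bar.1 hx a (self_mem_P a)
  have f2 : a ∈ C x := h.2.1 x (mem_N_single_P.2 hya)
  have f3 : x = a := by
    by_contra hne
    exact h.2.2 a x (Ne.symm hne) ⟨f1, f2⟩
  have g1 : x ∈ C b := mem_bar.1 hy b (self_mem_P b)
  have g2 : b ∈ B x := h.1 x (mem_N_single_P.2 hxb)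
  have g3 : x = b := by
    by_contra hne
    exact h.2.2 x b hne ⟨g2, g1⟩
  exact hab (f3.symm.trans g3)

lemma sum_compl (f : V → Finset V) (g : V → Finset V)
    (hfg : ∀ a b, a ∉ f b ↔ a ≠ b ∧ b ∈ g a) (hg : ∀ a, a ∈ g a) :
    ∑ b, ((f b).card : ℤ) = (Fintype.card V : ℤ) * (Fintype.card V) + Fintype.card V
      - ∑ a, ((g a).card : ℤ) := by
  have h1 : ∀ b, ((f b).card : ℤ) = (Fintype.card V : ℤ) - (((f b)ᶜ).card : ℤ) := by
    intro b
    rw [card_compl]
    have := card_le_univ (f b)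
    omega
  have h2 : ∑ b, (((f b)ᶜ).card : ℤ) = ∑ a, (((g a).erase a).card : ℤ) := by
    have e1 : ∀ b, (f b)ᶜ = univ.filter fun a => a ≠ b ∧ b ∈ g a := by
      intro b
      ext a
      simp [hfg]
    have e2 : ∀ a, (g a).erase a = univ.filter fun b => a ≠ b ∧ b ∈ g a := by
      intro a
      ext b
      simp only [mem_erase, mem_filter, mem_univ, true_and]
      exact ⟨fun h => ⟨Ne.symm h.1, h.2⟩, fun h => ⟨Ne.symm h.1, h.2⟩⟩
    simp only [e1, e2, card_filter]
    push_cast
    exact sum_comm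
  have h3 : ∀ a, (((g a).erase a).card : ℤ) = ((g a).card : ℤ) - 1 := by
    intro a
    have := card_erase_add_one (hg a)
    omega
  calc ∑ b, ((f b).card : ℤ) = ∑ b, ((Fintype.card V : ℤ) - (((f b)ᶜ).card : ℤ)) :=
        sum_congr rfl fun b _ => h1 b
    _ = ∑ _b : V, (Fintype.card V : ℤ) - ∑ b, (((f b)ᶜ).card : ℤ) := sum_sub_distrib _ _
    _ = _ := by
      rw [h2]
      simp only [h3, sum_sub_distrib, sum_const, card_univ, nsmul_eq_mul, mul_one]
      ring

lemma sum_compl_le (f : V → Finset V) (g : V → Finset V)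
    (hfg : ∀ a b, a ∉ f b → a ≠ b ∧ b ∈ g a) (hg : ∀ a, a ∈ g a) :
    (Fintype.card V : ℤ) * (Fintype.card V) + Fintype.card V
      - ∑ a, ((g a).card : ℤ) ≤ ∑ b, ((f b).card : ℤ) := by
  -- enlarge the complement
  let f' : V → Finset V := fun b => univ.filter fun a => ¬ (a ≠ b ∧ b ∈ g a)
  have h1 := sum_compl f' g (by intro a b; simp [f']) hg
  rw [← h1]
  refine sum_le_sum fun b _ => ?_
  have : f' b ⊆ f b := by
    intro a ha
    by_contra hcon
    exact (mem_filter.1 ha).2 (hfg a b hcon)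
  exact_mod_cast card_le_card this

lemma sum_compl_ge (f : V → Finset V) (g : V → Finset V)
    (hfg : ∀ a b, a ≠ b → b ∈ g a → a ∉ f b) (hg : ∀ a, a ∈ g a) :
    ∑ b, ((f b).card : ℤ) ≤ (Fintype.card V : ℤ) * (Fintype.card V) + Fintype.card V
      - ∑ a, ((g a).card : ℤ) := by
  let f' : V → Finset V := fun b => univ.filter fun a => ¬ (a ≠ b ∧ b ∈ g a)
  have h1 := sum_compl f' g (by intro a b; simp [f']) hg
  rw [← h1]
  refine sum_le_sum fun b _ => ?_
  have : f b ⊆ f' b := by
    intro a ha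
    refine mem_filter.2 ⟨mem_univ _, ?_⟩
    rintro ⟨h1, h2⟩
    exact hfg a b h1 h2 ha
  exact_mod_cast card_le_card this

theorem inner_le {B C : V → Finset V} (h : Opt E B C) :
    cost E (bar E B) (bar E C) ≤ cost E B C := by
  have hF := h.1
  have hml := main_lemma (E := E) (L := B) (U := Up C) (B_sub_Up hF)
    (fun a R h1 h2 => h.row a R h1 h2) (fun x T hT => h.col x T hT)
  have selfB := self_mem_of (E := E) hF.1
  have selfC := self_mem_of (E := E) hF.2.1
  have selfUp : ∀ a, a ∈ Up C a := fun a => mem_Up.2 (Or.inl rfl)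
  have selfbarUp : ∀ a, a ∈ bar E (Up C) a := by
    intro a
    rw [mem_bar]
    intro s hs
    exact B_sub_Up hF s (hF.1 s (mem_N_single_P.2 hs))
  -- columns of C
  have s1 := sum_compl C (Up C) (by
    intro a b
    rw [mem_Up]
    constructor
    · intro hh
      refine ⟨?_, Or.inr hh⟩
      rintro rfl
      exact hh (selfC a)
    · rintro ⟨h1, h2 | h2⟩
      · exact absurd h2.symm h1
      · exact h2) selfUp
  have s2 := sum_compl (fun b => N E (C b)) (bar E (Up C)) (by
    intro a b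
    constructor
    · intro hh
      refine ⟨?_, ?_⟩
      · rintro rfl
        exact hh (subset_N _ (selfC a))
      · rw [mem_bar]
        intro s hs
        rw [mem_Up]
        right
        intro hsC
        exact hh (mem_N_iff_P.2 ⟨s, hsC, hs⟩)
    · rintro ⟨hab, hb⟩ hcon
      obtain ⟨s, hs, hsa⟩ := mem_N_iff_P.1 hcon
      rcases mem_Up.1 (mem_bar.1 hb s hsa) with g | g
      · subst g
        -- b = s, b → a
        have g1 : a ∈ C b := hF.2.1 b (mem_N_single_P.2 hsa)
        rcases mem_Up.1 (mem_bar.1 hb a (self_mem_P a)) with g2 | g2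
        · exact hab g2.symm
        · exact g2 g1
      · exact g hs) selfbarUp
  -- converse statement
  have conv : ∀ a b, a ≠ b → b ∈ N E (Up C a) → a ∉ bar E C b := by
    intro a b hab hb hcon
    obtain ⟨s, hs, hsb⟩ := mem_N_iff_P.1 hb
    have g1 : a ∈ C s := mem_bar.1 hcon s hsb
    rcases mem_Up.1 hs with g | g
    · subst g
      have g2 : b ∈ B s := hF.1 s (mem_N_single_P.2 hsb)
      exact hF.2.2 s b hab ⟨g2, mem_bar.1 hcon b (self_mem_P b)⟩
    · exact g g1
  have selfNUp : ∀ a, a ∈ N E (Up C a) := fun a => subset_N _ (selfUp a)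
  have selfNbar : ∀ a, a ∈ N E (bar E (Up C) a) := fun a => subset_N _ (selfbarUp a)
  have selfbarC : ∀ a, a ∈ bar E C a := by
    intro a
    rw [mem_bar]
    intro s hs
    exact hF.2.1 s (mem_N_single_P.2 hs)
  have s3 := sum_compl_le (bar E C) (fun a => N E (Up C a)) (by
    intro a b hh
    refine ⟨?_, ?_⟩
    · rintro rfl
      exact hh (selfbarC a)
    · rw [mem_bar] at hh
      push Not at hh
      obtain ⟨s, hs, hsa⟩ := hh
      exact mem_N_iff_P.2 ⟨s, mem_Up.2 (Or.inr hsa), hs⟩) selfNUp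
  have s4 := sum_compl_ge (fun b => N E (bar E C b)) (fun a => N E (bar E (Up C) a)) (by
    intro v b hvb hb hcon
    obtain ⟨x, hx, hxb⟩ := mem_N_iff_P.1 hb
    obtain ⟨s, hs, hsv⟩ := mem_N_iff_P.1 hcon
    by_cases hsb : s = b
    · subst hsb
      -- b → v
      rcases mem_Up.1 (mem_bar.1 hx s hsv) with g | g
      · subst g
        rcases mem_Up.1 (mem_bar.1 hx v (self_mem_P v)) with g2 | g2
        · exact hvb g2.symm
        · exact g2 (hF.2.1 x (mem_N_single_P.2 hsv))
      · exact g (hF.2.1 x (mem_N_single_P.2 hxb))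
    · exact conv s b hsb (mem_N_iff_P.2 ⟨x, mem_bar.1 hx s hsv, hxb⟩) hs) selfNbar
  unfold cost
  have t1 : ∑ a, c E (C a) = ∑ a, ((N E (C a)).card : ℤ) - ∑ a, ((C a).card : ℤ) := by
    unfold c; rw [sum_sub_distrib]
  have t2 : ∑ a, c E (bar E C a) =
      ∑ a, ((N E (bar E C a)).card : ℤ) - ∑ a, ((bar E C a).card : ℤ) := by
    unfold c; rw [sum_sub_distrib]
  have t3 : ∑ a, c E (Up C a) = ∑ a, ((N E (Up C a)).card : ℤ) - ∑ a, ((Up C a).card : ℤ) := by
    unfold c; rw [sum_sub_distrib]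
  have t4 : ∑ a, c E (bar E (Up C) a) =
      ∑ a, ((N E (bar E (Up C) a)).card : ℤ) - ∑ a, ((bar E (Up C) a).card : ℤ) := by
    unfold c; rw [sum_sub_distrib]
  rw [sum_sub_distrib, sum_sub_distrib, t3, t4] at hml
  rw [t1, t2]
  linarith

end Vale.Agent.P038.H982
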