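import Vale.Agent.P038.H982.Cut

namespace Vale.Agent.P038.H982
open Finset

variable {V : Type*} [Fintype V] [DecidableEq V] {E : Finset (V × V)}

/-- counterexample (closed form) -/
def CE (E : Finset (V × V)) : Prop :=
  (∀ u v, (u, v) ∈ E → (v, u) ∉ E) ∧ ∀ v, (N E (O1 E v)).card < 2 * (O1 E v).card

/-- (G), the deletion principle -/
theorem deletion (hCE : CE E) (hmin : ∀ E' : Finset (V × V), E' ⊂ E → ¬ CE E') (X : Finset V)
    (hX : N E X ≠ X) : c E (N E X) < c E X := by
  classical
  by_contra hcon
  push Not at hcon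
  set L := N E X \ X with hL
  let d : Finset V → ℤ := fun T => (((N E T) \ X).card : ℤ) - 2 * T.card
  have hXN : X ⊆ N E X := subset_N X
  have hNN : N E (N E X) = X ∪ (N E L \ X) := by
    have : N E X = X ∪ L := by rw [hL, union_sdiff_of_subset hXN]
    conv_lhs => rw [this, N_union]
    ext y
    simp only [mem_union, mem_sdiff]
    constructor
    · rintro (h | h)
      · by_cases hy : y ∈ X
        · exact Or.inl hy
        · right
          exact ⟨subset_N L (by rw [hL, mem_sdiff]; exact ⟨h, hy⟩), hy⟩
      · by_cases hy : y ∈ X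
        · exact Or.inl hy
        · exact Or.inr ⟨h, hy⟩
    · rintro (h | h)
      · exact Or.inl (hXN h)
      · exact Or.inr h.1
  have hdL : 0 ≤ d L := by
    have h1 : (N E (N E X)).card = X.card + (N E L \ X).card := by
      rw [hNN, card_union_of_disjoint disjoint_sdiff]
    have h2 : (N E X).card = X.card + L.card := by
      rw [hL]
      have := card_sdiff_add_card_eq_card hXN
      omega
    unfold c at hcon
    simp only [d]
    omega
  have hLne : L.Nonempty := by
    rw [hL, sdiff_nonempty]
    intro h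
    exact hX (Subset.antisymm h hXN)
  -- a minimiser different from L
  obtain ⟨T, hTL, hTne, hTmin⟩ : ∃ T, T ⊆ L ∧ T ≠ L ∧ ∀ S ⊆ L, d T ≤ d S := by
    obtain ⟨T, hT, hmin'⟩ := exists_min_image L.powerset d ⟨∅, by simp⟩
    by_cases hTL : T = L
    · refine ⟨∅, by simp, hLne.ne_empty.symm, ?_⟩
      intro S hS
      have h0 : d ∅ = 0 := by simp [d, N]
      have h1 := hmin' S (mem_powerset.2 hS)
      rw [hTL] at h1
      rw [h0]
      linarith
    · exact ⟨T, mem_powerset.1 hT, hTL, fun S hS => hmin' S (mem_powerset.2 hS)⟩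
  let E' : Finset (V × V) := E.filter fun p => ¬ (p.1 ∈ X ∧ p.2 ∈ L ∧ p.2 ∉ T)
  have hE'sub : E' ⊆ E := filter_subset _ _
  have hE'ss : E' ⊂ E := by
    refine ⟨hE'sub, ?_⟩
    intro h
    obtain ⟨z, hz, hzT⟩ : ∃ z ∈ L, z ∉ T := by
      by_contra hc
      push Not at hc
      exact hTne (Subset.antisymm hTL hc)
    have hz' := hz
    rw [hL, mem_sdiff] at hz'
    obtain ⟨y, hy, hyz⟩ := mem_N.1 hz'.1
    rcases hyz with rfl | hyz
    · exact hz'.2 hy
    · exact (mem_filter.1 (h hyz)).2 ⟨hy, hz, hzT⟩
  refine hmin E' hE'ss ⟨?_, ?_⟩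
  · intro u v h h'
    exact hCE.1 u v (hE'sub h) (hE'sub h')
  · intro v
    have hNN' : ∀ S, N E' S ⊆ N E S := by
      intro S y hy
      obtain ⟨x, hx, h⟩ := mem_N.1 hy
      exact mem_N.2 ⟨x, hx, h.imp id (fun h => hE'sub h)⟩
    by_cases hv : v ∈ X
    · -- row in X
      set D := (O1 E v).filter fun z => z ∈ L ∧ z ∉ T with hD
      have hO : O1 E' v = O1 E v \ D := by
        ext z
        simp only [mem_O1, E', hD, mem_filter, mem_sdiff]
        constructor
        · rintro ⟨h1, h2⟩
          exact ⟨h1, fun h3 => h2 ⟨hv, h3.2⟩⟩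
        · rintro ⟨h1, h2⟩
          exact ⟨h1, fun h3 => h2 ⟨h1, h3.2⟩⟩
      have hDO : D ⊆ O1 E v := filter_subset _ _
      have hcardO : (O1 E' v).card + D.card = (O1 E v).card := by
        rw [hO]; exact card_sdiff_add_card_eq_card hDO
      have hDT : Disjoint T D := by
        rw [disjoint_left]
        intro z hz hzD
        exact (mem_filter.1 hzD).2.2 hz
      have hdT := hTmin (T ∪ D) (union_subset hTL (fun z hz => (mem_filter.1 hz).2.1))
      set W := N E D \ (N E T ∪ X) with hW
      have hsplit : (N E (T ∪ D) \ X).card = (N E T \ X).card + W.card := by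
        rw [← card_union_of_disjoint]
        · congr 1
          rw [N_union, hW]
          ext y
          simp only [mem_union, mem_sdiff]
          tauto
        · rw [disjoint_left]
          intro y hy hy'
          rw [hW, mem_sdiff, mem_union] at hy'
          exact hy'.2 (Or.inl (mem_sdiff.1 hy).1)
      have hWD : 2 * (D.card : ℤ) ≤ W.card := by
        simp only [d] at hdT
        rw [hsplit, card_union_of_disjoint hDT] at hdT
        push_cast at hdT
        linarith
      have hsub : N E' (O1 E' v) ⊆ N E (O1 E v) \ W := by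
        intro z hz
        obtain ⟨u, hu, huz⟩ := mem_N.1 hz
        have hu' : u ∈ O1 E v ∧ u ∉ D := by rw [hO] at hu; exact mem_sdiff.1 hu
        rw [mem_sdiff]
        refine ⟨mem_N.2 ⟨u, hu'.1, huz.imp id (fun h => hE'sub h)⟩, ?_⟩
        intro hzW
        rw [hW, mem_sdiff, mem_union] at hzW
        by_cases huX : u ∈ X
        · rcases huz with rfl | huz
          · exact hzW.2 (Or.inr huX)
          · have h1 := (mem_filter.1 huz).2
            have hzX : z ∉ X := fun h => hzW.2 (Or.inr h)
            have hzL : z ∈ L := by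
              rw [hL, mem_sdiff]
              exact ⟨mem_N.2 ⟨u, huX, Or.inr (hE'sub huz)⟩, hzX⟩
            have hzT : z ∈ T := by
              by_contra hzT
              exact h1 ⟨huX, hzL, hzT⟩
            exact hzW.2 (Or.inl (subset_N T hzT))
        · have huL : u ∈ L := by
            rw [hL, mem_sdiff]
            exact ⟨mem_N.2 ⟨v, hv, Or.inr (mem_O1.1 hu'.1)⟩, huX⟩
          have huT : u ∈ T := by
            by_contra huT
            exact hu'.2 (mem_filter.2 ⟨hu'.1, huL, huT⟩)
          exact hzW.2 (Or.inl (mem_N.2 ⟨u, huT, huz.imp id (fun h => hE'sub h)⟩))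
      have hWsub : W ⊆ N E (O1 E v) := by
        rw [hW]
        exact sdiff_subset.trans (N_mono hDO)
      have h1 := card_le_card hsub
      have h2 := card_sdiff_add_card_eq_card hWsub
      have h3 := hCE.2 v
      omega
    · have hO : O1 E' v = O1 E v := by
        ext z
        simp only [mem_O1, E', mem_filter]
        constructor
        · exact fun h => h.1
        · exact fun h => ⟨h, fun h' => hv h'.1⟩
      rw [hO]
      exact lt_of_le_of_lt (card_le_card (hNN' _)) (hCE.2 v)

/-- no counterexample with minimal arc set -/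
theorem no_min_CE [Nonempty V] (hCE : CE E)
    (hmin : ∀ E' : Finset (V × V), E' ⊂ E → ¬ CE E') : False := by
  classical
  -- optimum
  obtain ⟨p, hp, hpmin⟩ := exists_min_image
    (univ.filter fun p : (V → Finset V) × (V → Finset V) => Feas E p.1 p.2)
    (fun p => cost E p.1 p.2) ⟨(_, _), mem_filter.2 ⟨mem_univ _, feas_start hCE.1⟩⟩
  obtain ⟨B, C⟩ := p
  have hF : Feas E B C := (mem_filter.1 hp).2
  have hOpt : Opt E B C := ⟨hF, fun B' C' h => hpmin (B', C') (mem_filter.2 ⟨mem_univ _, h⟩)⟩
  have h1 := inner_le hOpt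
  have hin := inner_compat hF
  have h2 := hOpt.2 _ _ hin
  have hle : ∀ X, c E (N E X) ≤ c E X := by
    intro X
    by_cases hX : N E X = X
    · rw [hX]
    · exact (deletion hCE hmin X hX).le
  have hclosed : (∀ a, N E (bar E B a) = bar E B a) ∧ (∀ a, N E (bar E C a) = bar E C a) := by
    have hs1 : ∑ a, c E (N E (bar E B a)) ≤ ∑ a, c E (bar E B a) := sum_le_sum fun a _ => hle _
    have hs2 : ∑ a, c E (N E (bar E C a)) ≤ ∑ a, c E (bar E C a) := sum_le_sum fun a _ => hle _
    unfold cost at h1 h2
    refine ⟨fun a => ?_, fun a => ?_⟩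
    · by_contra hne
      have : ∑ a, c E (N E (bar E B a)) < ∑ a, c E (bar E B a) :=
        sum_lt_sum (fun a _ => hle _) ⟨a, mem_univ _, deletion hCE hmin _ hne⟩
      linarith
    · by_contra hne
      have : ∑ a, c E (N E (bar E C a)) < ∑ a, c E (bar E C a) :=
        sum_lt_sum (fun a _ => hle _) ⟨a, mem_univ _, deletion hCE hmin _ hne⟩
      linarith
  -- reachability
  let R : V → Finset V := fun a =>
    univ.filter fun b => Relation.ReflTransGen (fun u v => (u, v) ∈ E) a b
  obtain ⟨a, -, ha⟩ := exists_min_image univ (fun a => (R a).card) univ_nonempty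
  have hout : (O1 E a).Nonempty := by
    rw [← card_pos]
    have := hCE.2 a
    omega
  obtain ⟨b, hb⟩ := hout
  have hab : (a, b) ∈ E := mem_O1.1 hb
  have hRsub : R b ⊆ R a := by
    intro x hx
    refine mem_filter.2 ⟨mem_univ _, ?_⟩
    exact Relation.ReflTransGen.head hab (mem_filter.1 hx).2
  have hReq : R b = R a := eq_of_subset_of_card_le hRsub (ha b (mem_univ _))
  have hba : Relation.ReflTransGen (fun u v => (u, v) ∈ E) b a := by
    have : a ∈ R b := by
      rw [hReq]
      exact mem_filter.2 ⟨mem_univ _, Relation.ReflTransGen.refl⟩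
    exact (mem_filter.1 this).2
  have hne : a ≠ b := by
    rintro rfl
    exact hCE.1 a a hab hab
  -- a ∈ closed set containing b
  have hclo : ∀ S : Finset V, N E S = S → ∀ x y, x ∈ S →
      Relation.ReflTransGen (fun u v => (u, v) ∈ E) x y → y ∈ S := by
    intro S hS x y hx hxy
    induction hxy with
    | refl => exact hx
    | tail _ hyz ih =>
      rw [← hS]
      exact mem_N.2 ⟨_, ih, Or.inr hyz⟩
  have hself : ∀ {B : V → Finset V}, (∀ a, N E {a} ⊆ B a) → ∀ a, a ∈ bar E B a := by
    intro B hB a
    rw [mem_bar]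
    intro s hs
    exact hB s (mem_N_single_P.2 hs)
  have m1 : b ∈ N E (bar E B a) := mem_N.2 ⟨a, hself hF.1 a, Or.inr hab⟩
  have m2 : a ∈ N E (bar E C b) :=
    subset_N _ (hclo _ (hclosed.2 b) b a (hself hF.2.1 b) hba)
  exact hin.2.2 a b hne ⟨m1, m2⟩

theorem no_CE [Nonempty V] (E : Finset (V × V)) : ¬ CE E := by
  induction E using Finset.strongInduction with
  | H E ih =>
    intro h
    exact no_min_CE h ih

/-- Seymour's second neighbourhood conjecture -/
theorem snc {V : Type*} [Fintype V] [Nonempty V] (arc : V → V → Prop)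
    (hasym : ∀ u v, arc u v → ¬ arc v u) :
    ∃ v, Nat.card {u // arc v u} ≤ Nat.card {w // w ≠ v ∧ ¬ arc v w ∧ ∃ u, arc v u ∧ arc u w} := by
  classical
  by_contra hcon
  push Not at hcon
  let E : Finset (V × V) := univ.filter fun p => arc p.1 p.2
  have hE : ∀ u v, (u, v) ∈ E ↔ arc u v := by intro u v; simp [E]
  apply no_CE E
  refine ⟨?_, ?_⟩
  · intro u v h h'
    rw [hE] at h h'
    exact hasym u v h h'
  · intro v
    have h := hcon v
    rw [Nat.card_eq_fintype_card, Nat.card_eq_fintype_card, Fintype.card_subtype,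
      Fintype.card_subtype] at h
    have e1 : O1 E v = univ.filter fun u => arc v u := by
      ext u; simp [mem_O1, hE]
    have e2 : N E (O1 E v) = (univ.filter fun u => arc v u) ∪
        (univ.filter fun w => w ≠ v ∧ ¬ arc v w ∧ ∃ u, arc v u ∧ arc u w) := by
      ext w
      simp only [mem_N, mem_O1, hE, mem_union, mem_filter, mem_univ, true_and]
      constructor
      · rintro ⟨x, hx, rfl | hxw⟩
        · exact Or.inl hx
        · by_cases hw : arc v w
          · exact Or.inl hw
          · refine Or.inr ⟨?_, hw, x, hx, hxw⟩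
            rintro rfl
            exact hasym _ _ hx hxw
      · rintro (hw | ⟨-, -, x, hx, hxw⟩)
        · exact ⟨w, hw, Or.inl rfl⟩
        · exact ⟨x, hx, Or.inr hxw⟩
    have e3 := card_union_le (univ.filter fun u => arc v u)
      (univ.filter fun w => w ≠ v ∧ ¬ arc v w ∧ ∃ u, arc v u ∧ arc u w)
    rw [e2, e1]
    omega

end Vale.Agent.P038.H982
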