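import Mathlib

/-!
Seymour's second neighbourhood conjecture, unweighted, from scratch.
Outer/inner min cut comparison (notes of helpers 837, 484, 787, 357, 465) + deletion principle (294).
-/

namespace Vale.Agent.P038.H982
open Finset

variable {V : Type*} [Fintype V] [DecidableEq V]

/-- closed out-neighbourhood of a set -/
def N (E : Finset (V × V)) (S : Finset V) : Finset V :=
  univ.filter fun y => ∃ x ∈ S, y = x ∨ (x, y) ∈ E

/-- closed in-neighbourhood of a vertex -/
def P (E : Finset (V × V)) (z : V) : Finset V :=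
  univ.filter fun a => z = a ∨ (a, z) ∈ E

/-- open out-neighbourhood -/
def O1 (E : Finset (V × V)) (v : V) : Finset V :=
  univ.filter fun u => (v, u) ∈ E

/-- boundary function -/
def c (E : Finset (V × V)) (S : Finset V) : ℤ := ((N E S).card : ℤ) - (S.card : ℤ)

/-- row erosion -/
def bar (E : Finset (V × V)) (U : V → Finset V) (z : V) : Finset V :=
  univ.filter fun x => ∀ a ∈ P E z, x ∈ U a

variable {E : Finset (V × V)}

lemma mem_N {S : Finset V} {y : V} : y ∈ N E S ↔ ∃ x ∈ S, y = x ∨ (x, y) ∈ E := by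
  simp [N]

lemma mem_P {a z : V} : a ∈ P E z ↔ z = a ∨ (a, z) ∈ E := by simp [P]

lemma mem_O1 {a z : V} : z ∈ O1 E a ↔ (a, z) ∈ E := by simp [O1]

lemma mem_bar {U : V → Finset V} {z x : V} : x ∈ bar E U z ↔ ∀ a ∈ P E z, x ∈ U a := by
  simp [bar]

lemma self_mem_P (z : V) : z ∈ P E z := mem_P.2 (Or.inl rfl)

lemma mem_N_iff_P {S : Finset V} {y : V} : y ∈ N E S ↔ ∃ x ∈ S, x ∈ P E y := by
  simp [mem_N, mem_P]

lemma subset_N (S : Finset V) : S ⊆ N E S := fun x hx => mem_N.2 ⟨x, hx, Or.inl rfl⟩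

lemma N_mono {S T : Finset V} (h : S ⊆ T) : N E S ⊆ N E T := by
  intro y hy
  obtain ⟨x, hx, h'⟩ := mem_N.1 hy
  exact mem_N.2 ⟨x, h hx, h'⟩

lemma N_union (S T : Finset V) : N E (S ∪ T) = N E S ∪ N E T := by
  ext y
  simp only [mem_union, mem_N]
  constructor
  · rintro ⟨x, hx | hx, h⟩
    · exact Or.inl ⟨x, hx, h⟩
    · exact Or.inr ⟨x, hx, h⟩
  · rintro (⟨x, hx, h⟩ | ⟨x, hx, h⟩)
    · exact ⟨x, Or.inl hx, h⟩
    · exact ⟨x, Or.inr hx, h⟩

lemma c_submod (S T : Finset V) : c E (S ∪ T) + c E (S ∩ T) ≤ c E S + c E T := by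
  have h1 : (N E (S ∩ T)).card ≤ (N E S ∩ N E T).card :=
    card_le_card (subset_inter (N_mono inter_subset_left) (N_mono inter_subset_right))
  have h2 := card_union_add_card_inter (N E S) (N E T)
  have h3 := card_union_add_card_inter S T
  rw [← N_union] at h2
  unfold c
  omega

/-- truncated minimum -/
noncomputable def kk (E : Finset (V × V)) (A Q S : Finset V) : ℤ :=
  (insert Q (Q.powerset.filter fun Y => A ⊆ Y ∧ S ∩ Q ⊆ Y)).inf' (insert_nonempty _ _) (c E)

lemma kk_le {A Q S Y : Finset V} (hY : Y ⊆ Q) (hA : A ⊆ Y) (hS : S ∩ Q ⊆ Y) :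
    kk E A Q S ≤ c E Y :=
  inf'_le _ (mem_insert_of_mem (mem_filter.2 ⟨mem_powerset.2 hY, hA, hS⟩))

lemma kk_ex {A Q : Finset V} (S : Finset V) (h : A ⊆ Q) :
    ∃ Y, Y ⊆ Q ∧ A ⊆ Y ∧ S ∩ Q ⊆ Y ∧ kk E A Q S = c E Y := by
  obtain ⟨Y, hY, h'⟩ := exists_mem_eq_inf'
    (insert_nonempty Q (Q.powerset.filter fun Y => A ⊆ Y ∧ S ∩ Q ⊆ Y)) (c E)
  rcases mem_insert.1 hY with rfl | hY
  · exact ⟨Y, Subset.refl _, h, inter_subset_right, h'⟩
  · obtain ⟨h1, h2, h3⟩ := mem_filter.1 hY
    exact ⟨Y, mem_powerset.1 h1, h2, h3, h'⟩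

lemma kk_mono {A Q S S' : Finset V} (h : A ⊆ Q) (hS : S ⊆ S') : kk E A Q S ≤ kk E A Q S' := by
  obtain ⟨Y, h1, h2, h3, h4⟩ := kk_ex (E := E) S' h
  rw [h4]
  exact kk_le h1 h2 (fun x hx => h3 (mem_inter.2 ⟨hS (mem_inter.1 hx).1, (mem_inter.1 hx).2⟩))

lemma kk_univ {A Q : Finset V} (h : A ⊆ Q) : kk E A Q univ = c E Q := by
  obtain ⟨Y, h1, h2, h3, h4⟩ := kk_ex (E := E) univ h
  have : Y = Q := Subset.antisymm h1 (by simpa using h3)
  rw [h4, this]

lemma kk_empty {A Q : Finset V} (h : A ⊆ Q) (hr : ∀ R, A ⊆ R → R ⊆ Q → c E A ≤ c E R) :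
    kk E A Q ∅ = c E A := by
  apply le_antisymm
  · exact kk_le h (Subset.refl _) (by simp)
  · obtain ⟨Y, h1, h2, h3, h4⟩ := kk_ex (E := E) ∅ h
    rw [h4]
    exact hr Y h2 h1

lemma kk_same {A Q S : Finset V} {x : V} (h : A ⊆ Q) (hx : x ∈ Q → x ∈ A) :
    kk E A Q (insert x S) ≤ kk E A Q S := by
  obtain ⟨Y, h1, h2, h3, h4⟩ := kk_ex (E := E) S h
  rw [h4]
  refine kk_le h1 h2 ?_
  intro y hy
  obtain ⟨hy1, hy2⟩ := mem_inter.1 hy
  rcases mem_insert.1 hy1 with rfl | hy1
  · exact h2 (hx hy2)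
  · exact h3 (mem_inter.2 ⟨hy1, hy2⟩)

lemma bar_sub {U : V → Finset V} {a z : V} (ha : a ∈ P E z) : bar E U z ⊆ U a :=
  fun _ hx => mem_bar.1 hx a ha

lemma bar_mono {L U : V → Finset V} (h : ∀ a, L a ⊆ U a) (z : V) : bar E L z ⊆ bar E U z :=
  fun _ hx => mem_bar.2 fun a ha => h a (mem_bar.1 hx a ha)

lemma key {L U : V → Finset V} (hLU : ∀ a, L a ⊆ U a) {a z x : V} {S : Finset V}
    (ha : a ∈ P E z) (hx : x ∈ bar E U z) :
    kk E (L a) (U a) (insert x S) + kk E (bar E L z) (bar E U z) S ≤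
      kk E (bar E L z) (bar E U z) (insert x S) + kk E (L a) (U a) S := by
  obtain ⟨Y, h1, h2, h3, h4⟩ := kk_ex (E := E) (insert x S) (bar_mono (E := E) hLU z)
  obtain ⟨Y', g1, g2, g3, g4⟩ := kk_ex (E := E) S (hLU a)
  rw [h4, g4]
  have hs := c_submod (E := E) Y Y'
  have e1 : kk E (L a) (U a) (insert x S) ≤ c E (Y ∪ Y') := by
    refine kk_le (union_subset (h1.trans (bar_sub ha)) g1) (g2.trans subset_union_right) ?_
    intro y hy
    obtain ⟨hy1, hy2⟩ := mem_inter.1 hy
    rcases mem_insert.1 hy1 with rfl | hy1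
    · exact mem_union_left _ (h3 (mem_inter.2 ⟨mem_insert_self _ _, hx⟩))
    · exact mem_union_right _ (g3 (mem_inter.2 ⟨hy1, hy2⟩))
  have e2 : kk E (bar E L z) (bar E U z) S ≤ c E (Y ∩ Y') := by
    refine kk_le (inter_subset_left.trans h1) (subset_inter h2 ((bar_sub ha).trans g2)) ?_
    intro y hy
    obtain ⟨hy1, hy2⟩ := mem_inter.1 hy
    exact mem_inter.2 ⟨h3 (mem_inter.2 ⟨mem_insert_of_mem hy1, hy2⟩),
      g3 (mem_inter.2 ⟨hy1, bar_sub ha hy2⟩)⟩
  linarith

lemma sum_le_of_level {ι : Type*} [Fintype ι] (f g : ι → ℕ)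
    (h : ∀ s, (univ.filter fun a => s < f a).card ≤ (univ.filter fun a => s < g a).card) :
    ∑ a, f a ≤ ∑ a, g a := by
  have key : ∀ (f : ι → ℕ) (M : ℕ), (∀ a, f a ≤ M) →
      ∑ a, f a = ∑ s ∈ range M, (univ.filter fun a => s < f a).card := by
    intro f M hM
    have h1 : ∀ a, f a = ∑ s ∈ range M, if s < f a then 1 else 0 := by
      intro a
      rw [← card_filter]
      have : (range M).filter (fun s => s < f a) = range (f a) := by
        ext s
        simp only [mem_filter, mem_range]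
        constructor
        · exact fun h => h.2
        · exact fun h => ⟨lt_of_lt_of_le h (hM a), h⟩
      rw [this, card_range]
    calc ∑ a, f a = ∑ a, ∑ s ∈ range M, (if s < f a then 1 else 0) :=
          sum_congr rfl fun a _ => h1 a
      _ = ∑ s ∈ range M, ∑ a, (if s < f a then 1 else 0) := sum_comm
      _ = _ := sum_congr rfl fun s _ => (card_filter _ _).symm
  have hf : ∀ a, f a ≤ ∑ a, f a + ∑ a, g a := fun a =>
    (single_le_sum (fun _ _ => Nat.zero_le _) (mem_univ a)).trans (Nat.le_add_right _ _)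
  have hg : ∀ a, g a ≤ ∑ a, f a + ∑ a, g a := fun a =>
    (single_le_sum (fun _ _ => Nat.zero_le _) (mem_univ a)).trans (Nat.le_add_left _ _)
  generalize ∑ a, f a + ∑ a, g a = M at hf hg
  rw [key f M hf, key g M hg]
  exact sum_le_sum fun s _ => h s

lemma inter_rows {L U : V → Finset V} (r : ∀ a R, L a ⊆ R → R ⊆ U a → c E (L a) ≤ c E R)
    (hLU : ∀ a, L a ⊆ U a) {z : V} {R : Finset V} (hR : R ⊆ bar E U z) (T : Finset V)
    (hT : T ⊆ P E z) : c E (R.filter fun x => ∀ a ∈ T, x ∈ L a) ≤ c E R := by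
  induction T using Finset.induction_on with
  | empty => simp
  | insert a T ha ih =>
    have hT' : T ⊆ P E z := fun x hx => hT (mem_insert_of_mem hx)
    have haP : a ∈ P E z := hT (mem_insert_self _ _)
    have ih' := ih hT'
    set RT := R.filter fun x => ∀ a ∈ T, x ∈ L a with hRT
    have hsub : RT ⊆ U a := (filter_subset _ _).trans (hR.trans (bar_sub haP))
    have h1 : c E (L a) ≤ c E (RT ∪ L a) :=
      r a _ subset_union_right (union_subset hsub (hLU a))
    have h2 := c_submod (E := E) RT (L a)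
    have h3 : (R.filter fun x => ∀ b ∈ insert a T, x ∈ L b) = RT ∩ L a := by
      ext x
      simp only [hRT, mem_filter, mem_inter, mem_insert]
      constructor
      · rintro ⟨h, h'⟩
        exact ⟨⟨h, fun b hb => h' b (Or.inr hb)⟩, h' a (Or.inl rfl)⟩
      · rintro ⟨⟨h, h'⟩, h''⟩
        refine ⟨h, ?_⟩
        rintro b (rfl | hb)
        · exact h''
        · exact h' b hb
    rw [h3]
    linarith

lemma bar_opt {L U : V → Finset V} (r : ∀ a R, L a ⊆ R → R ⊆ U a → c E (L a) ≤ c E R)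
    (hLU : ∀ a, L a ⊆ U a) {z : V} {R : Finset V} (h1 : bar E L z ⊆ R) (h2 : R ⊆ bar E U z) :
    c E (bar E L z) ≤ c E R := by
  have := inter_rows r hLU h2 (P E z) (Subset.refl _)
  have h3 : (R.filter fun x => ∀ a ∈ P E z, x ∈ L a) = bar E L z := by
    ext x
    simp only [mem_filter, mem_bar]
    exact ⟨fun h => h.2, fun h => ⟨h1 (mem_bar.2 h), h⟩⟩
  rwa [h3] at this

theorem main_lemma {L U : V → Finset V} (hLU : ∀ a, L a ⊆ U a)
    (r : ∀ a R, L a ⊆ R → R ⊆ U a → c E (L a) ≤ c E R)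
    (k : ∀ x (T : Finset V), (∀ a ∈ T, x ∈ U a ∧ x ∉ L a) →
      T.card ≤ (univ.filter fun z => x ∈ bar E U z ∧ ∃ a ∈ T, a ∈ P E z).card) :
    ∑ a, (c E (U a) - c E (L a)) ≤ ∑ z, (c E (bar E U z) - c E (bar E L z)) := by
  have tel : ∀ S : Finset V,
      ∑ a, (kk E (L a) (U a) S - kk E (L a) (U a) ∅) ≤
      ∑ z, (kk E (bar E L z) (bar E U z) S - kk E (bar E L z) (bar E U z) ∅) := by
    intro S
    induction S using Finset.induction_on with
    | empty => simp
    | insert x S hx ih =>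
      have step : ∑ a, (kk E (L a) (U a) (insert x S) - kk E (L a) (U a) S) ≤
          ∑ z, (kk E (bar E L z) (bar E U z) (insert x S) - kk E (bar E L z) (bar E U z) S) := by
        have n1 : ∀ a, 0 ≤ kk E (L a) (U a) (insert x S) - kk E (L a) (U a) S := fun a =>
          sub_nonneg.2 (kk_mono (hLU a) (subset_insert _ _))
        have n2 : ∀ z, 0 ≤ kk E (bar E L z) (bar E U z) (insert x S) -
            kk E (bar E L z) (bar E U z) S := fun z =>
          sub_nonneg.2 (kk_mono (bar_mono hLU z) (subset_insert _ _))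
        have lev := sum_le_of_level
          (fun a => (kk E (L a) (U a) (insert x S) - kk E (L a) (U a) S).toNat)
          (fun z => (kk E (bar E L z) (bar E U z) (insert x S) -
            kk E (bar E L z) (bar E U z) S).toNat) (by
          intro s
          refine (k x (univ.filter fun a => s <
            (kk E (L a) (U a) (insert x S) - kk E (L a) (U a) S).toNat) ?_).trans ?_
          · intro a ha
            have ha' := (mem_filter.1 ha).2
            by_contra hcon
            have hz : x ∈ U a → x ∈ L a := by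
              intro h
              by_contra h'
              exact hcon ⟨h, h'⟩
            have := kk_same (E := E) (S := S) (hLU a) hz
            omega
          · apply card_le_card
            intro z hz
            obtain ⟨hxz, a, ha, haz⟩ := (mem_filter.1 hz).2
            have ha' := (mem_filter.1 ha).2
            have hk := key (E := E) (S := S) hLU haz hxz
            refine mem_filter.2 ⟨mem_univ _, ?_⟩
            omega)
        have q1 : ((∑ a, (kk E (L a) (U a) (insert x S) - kk E (L a) (U a) S).toNat : ℕ) : ℤ) =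
            ∑ a, (kk E (L a) (U a) (insert x S) - kk E (L a) (U a) S) := by
          push_cast
          exact sum_congr rfl fun a _ => Int.toNat_of_nonneg (n1 a)
        have q2 : ((∑ z, (kk E (bar E L z) (bar E U z) (insert x S) -
            kk E (bar E L z) (bar E U z) S).toNat : ℕ) : ℤ) =
            ∑ z, (kk E (bar E L z) (bar E U z) (insert x S) -
            kk E (bar E L z) (bar E U z) S) := by
          push_cast
          exact sum_congr rfl fun a _ => Int.toNat_of_nonneg (n2 a)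
        rw [← q1, ← q2]
        exact_mod_cast lev
      have e1 : ∑ a, (kk E (L a) (U a) (insert x S) - kk E (L a) (U a) ∅) =
          ∑ a, (kk E (L a) (U a) (insert x S) - kk E (L a) (U a) S) +
          ∑ a, (kk E (L a) (U a) S - kk E (L a) (U a) ∅) := by
        rw [← sum_add_distrib]
        exact sum_congr rfl fun a _ => by ring
      have e2 : ∑ z, (kk E (bar E L z) (bar E U z) (insert x S) -
            kk E (bar E L z) (bar E U z) ∅) =
          ∑ z, (kk E (bar E L z) (bar E U z) (insert x S) - kk E (bar E L z) (bar E U z) S) +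
          ∑ z, (kk E (bar E L z) (bar E U z) S - kk E (bar E L z) (bar E U z) ∅) := by
        rw [← sum_add_distrib]
        exact sum_congr rfl fun a _ => by ring
      rw [e1, e2]
      exact add_le_add step ih
  have h := tel univ
  have a1 : ∀ a, kk E (L a) (U a) univ - kk E (L a) (U a) ∅ = c E (U a) - c E (L a) := by
    intro a
    rw [kk_univ (hLU a), kk_empty (hLU a) (r a)]
  have a2 : ∀ z, kk E (bar E L z) (bar E U z) univ - kk E (bar E L z) (bar E U z) ∅ =
      c E (bar E U z) - c E (bar E L z) := by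
    intro z
    rw [kk_univ (bar_mono hLU z), kk_empty (bar_mono hLU z)
      (fun R h1 h2 => bar_opt r hLU h1 h2)]
  simp only [a1, a2] at h
  exact h

end Vale.Agent.P038.H982
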